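import Vale.Agent.P095.General.Basic
import Vale.Agent.P095.Main
import Vale.Agent.P095.General.Ingredient

/-!
Without characters the set of all traces has the uniform McDuff property, so it has the
equivariant one.
-/

noncomputable section

open Finset

namespace Vale.Agent.P095.General

open Vale.Agent.P101
open Vale.Agent.P101.CombineN (IsOrderZero supp)

universe u v

/-- An anticommuting pair inside an order zero family of even size. -/
lemma exists_pair_of_family {D : Type u} [CStarAlgebra D] {k : ℕ}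
    {E : Fin (k * 2) → Fin (k * 2) → D} {v : D} (hG : IsOrderZero E)
    (hs : ∀ i j, star (E i j) = E j i) (hr : ∀ i, ∃ r, star r * r = E i i)
    (hv : star v * v = 1 - supp E) :
    ∃ x y : D, IsSelfAdjoint x ∧ IsSelfAdjoint y ∧ ‖x‖ ≤ 1 ∧ ‖y‖ ≤ 1 ∧ x * y + y * x = 0 ∧
      x * x = supp E * supp E ∧ y * y = supp E * supp E ∧
      ∀ s : D, (∀ i j, Commute (E i j) s) → Commute x s ∧ Commute y s := by
  let := CStarAlgebra.spectralOrder D
  have := CStarAlgebra.spectralOrderedRing D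
  set e : Fin (k * 2) ≃ Fin k × Fin 2 := finProdFinEquiv.symm with he
  set σ : Fin (k * 2) → Fin (k * 2) := fun i => e.symm ((e i).1, (e i).2.rev) with hσ
  set sg : Fin (k * 2) → ℂ := fun i => if (e i).2 = 0 then 1 else -1 with hsg
  have hsgs : ∀ i, star (sg i) = sg i := fun i => by simp only [hsg]; split <;> simp
  have hσσ : ∀ i, σ (σ i) = i := fun i => by simp [hσ]
  have hsgσ : ∀ i, sg (σ i) = -sg i := fun i => by
    simp only [hsg, hσ, Equiv.apply_symm_apply]
    rcases (e i).2.eq_zero_or_eq_succ with h | ⟨m, h⟩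
    · simp [h]
    · obtain rfl : m = 0 := Subsingleton.elim _ _
      simp [h]
  have hsq : ∀ i, sg i * sg i = 1 := fun i => by simp only [hsg]; split <;> norm_num
  set H := supp E with hH
  set x := ∑ i, sg i • E i i with hx
  set y := ∑ i, E i (σ i) with hy
  have hxs : IsSelfAdjoint x := isSelfAdjoint_sum _ fun i _ => by
    rw [isSelfAdjoint_iff, star_smul, hsgs, hs]
  have hys : IsSelfAdjoint y := by
    rw [isSelfAdjoint_iff, hy, star_sum]
    simp only [hs]
    refine Fintype.sum_equiv ⟨σ, σ, hσσ, hσσ⟩ _ _ fun i => ?_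
    show E (σ i) i = E (σ i) (σ (σ i))
    rw [hσσ]
  have hxx : x * x = H * H := by
    rw [hx, Finset.sum_mul_sum]
    simp [hG.mul_eq, smul_smul, hsq, hH, supp, Finset.mul_sum]
  have hyy : y * y = H * H := by
    rw [hy, Finset.sum_mul_sum]
    simp only [hG.mul_eq, Finset.sum_ite_eq, Finset.mem_univ, if_true, hσσ]
    rw [← Finset.mul_sum, hH, supp]
  have hxy : x * y + y * x = 0 := by
    rw [hx, hy, Finset.sum_mul_sum, Finset.sum_mul_sum, ← Finset.sum_add_distrib]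
    simp [hG.mul_eq, hsgσ]
  have hH0 : 0 ≤ H := Finset.sum_nonneg fun i _ => by
    obtain ⟨r, hr⟩ := hr i
    rw [← hr]; exact star_mul_self_nonneg r
  have hH1 : H ≤ 1 := sub_nonneg.1 (by rw [← hv]; exact star_mul_self_nonneg v)
  have hHn : ‖H‖ ≤ 1 := (CStarAlgebra.norm_le_one_iff_of_nonneg H hH0).2 hH1
  have hn : ∀ w : D, IsSelfAdjoint w → w * w = H * H → ‖w‖ ≤ 1 := fun w hw e => by
    have h1 : ‖w‖ * ‖w‖ ≤ 1 := by
      rw [← CStarRing.norm_star_mul_self, hw.star_eq, e]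
      exact (norm_mul_le H H).trans (mul_le_one₀ hHn (norm_nonneg _) hHn)
    nlinarith [norm_nonneg w]
  exact ⟨x, y, hxs, hys, hn x hxs hxx, hn y hys hyy, hxy, hxx, hyy, fun s h =>
    ⟨Commute.sum_left _ _ _ fun i _ => (h i i).smul_left _,
      Commute.sum_left _ _ _ fun i _ => h i (σ i)⟩⟩

variable {G : Type v} [Group G] {D : Type u} [CStarAlgebra D]

/-- All traces of the algebra of a working setting have the uniform McDuff property. -/
theorem Sys.uniformMcDuff (sys : Sys G D) : UniformMcDuff {τ : D →ₗ[ℂ] ℂ | IsTr τ} := by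
  classical
  intro S δ hδ
  let := CStarAlgebra.spectralOrder D
  have := CStarAlgebra.spectralOrderedRing D
  obtain ⟨m, hm⟩ := exists_nat_gt (2 / δ ^ 2)
  obtain ⟨n, i₀, E, v, hn, ⟨k, hk⟩, hE, hs, hpos, hv, hfix, hc⟩ :=
    sys.exists_comparisonN (↑S) S.countable_toSet m
  obtain rfl : n = k * 2 := by omega
  obtain ⟨x, z, hx, hz, hxn, hzn, hxz, hxx, hzz, hcom⟩ := exists_pair_of_family hE hs hpos hv
  have hsmall : ∀ w : D, IsSelfAdjoint w → w * w = supp E * supp E →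
      Small {τ : D →ₗ[ℂ] ℂ | IsTr τ} (w * w - 1) δ := by
    intro w hw hww τ (hτ : IsTr τ)
    have h := Link.pair_of_relations (fun a => (τ a).re)
      (fun f => by simp [map_sum]) (fun a b => by simp [map_sub]) (by simp [hτ.map_one])
      (fun a b => by simp [hτ.comm a b]) hτ.re_nonneg hE hs hpos hv hfix
    refine Real.sqrt_le_iff.2 ⟨hδ.le, ?_⟩
    have e : star (w * w - 1) * (w * w - 1) =
        (1 - supp E * supp E) * (1 - supp E * supp E) := by
      rw [star_sub, star_mul, hw.star_eq, star_one, hww]; noncomm_ring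
    rw [e]
    have hd : 0 < δ ^ 2 := pow_pos hδ 2
    rw [div_lt_iff₀ hd] at hm
    have hnm : (m : ℝ) ≤ (k * 2 : ℕ) := by exact_mod_cast hn
    by_contra hge
    nlinarith [not_le.1 hge, Nat.cast_nonneg (α := ℝ) m]
  have h0 : ∀ a : D, a = 0 → Small {τ : D →ₗ[ℂ] ℂ | IsTr τ} a δ := fun a ha τ (hτ : IsTr τ) => by
    rw [ha, hτ.sn_zero]; exact hδ.le
  refine ⟨x, z, hx, hz, hxn, hzn, hsmall x hx hxx, hsmall z hz hzz, h0 _ hxz, fun s hs' => ?_⟩
  obtain ⟨c1, c2⟩ := hcom s (hc s hs').1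
  exact ⟨h0 _ (sub_eq_zero.2 c1.eq), h0 _ (sub_eq_zero.2 c2.eq)⟩

/-- Almost invariant almost anticommuting almost symmetries for all traces. -/
theorem Sys.exists_trace_pair [Countable G] (sys : Sys G D) (hG : Folner G) (E : Finset G) {δ : ℝ}
    (hδ : 0 < δ) :
    ∃ x z : D, IsSelfAdjoint x ∧ IsSelfAdjoint z ∧ ‖x‖ ≤ 1 ∧ ‖z‖ ≤ 1 ∧
      ∀ τ : D →ₗ[ℂ] ℂ, IsTr τ → ∀ w ∈ [x * x - 1, z * z - 1, x * z + z * x] ++
        (E.toList.map fun h => sys.act h x - x) ++ (E.toList.map fun h => sys.act h z - z),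
        (τ (star w * w)).re ≤ δ := by
  have hinv : ∀ τ ∈ {τ : D →ₗ[ℂ] ℂ | IsTr τ}, ∀ g, ∃ σ ∈ {τ : D →ₗ[ℂ] ℂ | IsTr τ},
      ∀ x, σ x = τ (sys.act g x) := by
    intro τ (hτ : IsTr τ) g
    let σ : D →ₗ[ℂ] ℂ :=
      { toFun := fun x => τ (sys.act g x)
        map_add' := fun a b => by rw [map_add, map_add]
        map_smul' := fun z a => by rw [map_smul, map_smul]; rfl }
    refine ⟨σ, ⟨?_, fun a b => ?_, fun a => ?_⟩, fun _ => rfl⟩
    · show τ (sys.act g 1) = 1
      rw [map_one, hτ.map_one]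
    · show τ (sys.act g (a * b)) = τ (sys.act g (b * a))
      rw [map_mul (sys.act g), map_mul (sys.act g), hτ.comm]
    · show ∃ r : ℝ, 0 ≤ r ∧ τ (sys.act g (star a * a)) = (r : ℂ)
      rw [map_mul (sys.act g), map_star]
      exact hτ.pos _
  obtain ⟨x, z, hx, hz, hxn, hzn, h1, h2, h3, -, h5⟩ :=
    final_ok G hG D {τ : D →ₗ[ℂ] ℂ | IsTr τ} (fun τ hτ => hτ) sys.act sys.act_mul sys.act_one'
      hinv sys.uniformMcDuff ∅ E (Real.sqrt δ) (Real.sqrt_pos.2 hδ)
  refine ⟨x, z, hx, hz, hxn, hzn, fun τ hτ w hw => ?_⟩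
  refine sq_le_of_small (T := {τ : D →ₗ[ℂ] ℂ | IsTr τ}) (fun τ hτ => hτ)
    (Real.sq_sqrt hδ.le).le ?_ τ hτ
  simp only [List.mem_append, List.mem_cons, List.not_mem_nil, or_false, List.mem_map,
    Finset.mem_toList] at hw
  rcases hw with ((rfl | rfl | rfl) | ⟨h, hh, rfl⟩) | ⟨h, hh, rfl⟩
  exacts [h1, h2, h3, (h5 h hh).1, (h5 h hh).2]

end Vale.Agent.P095.General
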