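import Vale.Agent.P095.General.Pair.Mix

/-!
From almost anticommuting almost symmetries to an element of square zero bounded below in every
quasitracial state, with continuity of the construction in norm.
-/

noncomputable section

open Finset
open scoped CStarAlgebra

namespace Vale.Agent.P095.General

universe u v

/-- The functional calculus is uniformly continuous in norm on self-adjoint contractions. -/
lemma exists_cfc_modulus (f : ℝ → ℝ) (hf : Continuous f) {ε : ℝ} (hε : 0 < ε) :
    ∃ ε₁ : ℝ, 0 < ε₁ ∧ ∀ (D : Type u) [CStarAlgebra D] (a b : D), IsSelfAdjoint a →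
      IsSelfAdjoint b → ‖a‖ ≤ 1 → ‖b‖ ≤ 1 → ‖a - b‖ ≤ ε₁ → ‖cfc f a - cfc f b‖ ≤ ε := by
  obtain ⟨p, hp⟩ := exists_polynomial_near_of_continuousOn (-1) 1 f hf.continuousOn (ε / 3)
    (by positivity)
  have hlip : ∃ L : ℝ, 0 ≤ L ∧ ∀ (D : Type u) [CStarAlgebra D] (a b : D), ‖a‖ ≤ 1 → ‖b‖ ≤ 1 →
      ‖Polynomial.aeval a p - Polynomial.aeval b p‖ ≤ L * ‖a - b‖ := by
    clear hp
    induction p using Polynomial.induction_on' with
    | add p q hp hq =>
      obtain ⟨L, hL, hp⟩ := hp
      obtain ⟨L', hL', hq⟩ := hq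
      refine ⟨L + L', add_nonneg hL hL', fun D _ a b ha hb => ?_⟩
      rw [map_add, map_add, add_mul]
      calc _ = ‖(Polynomial.aeval a p - Polynomial.aeval b p) +
            (Polynomial.aeval a q - Polynomial.aeval b q)‖ := by congr 1; abel
        _ ≤ _ := (norm_add_le _ _).trans (add_le_add (hp D a b ha hb) (hq D a b ha hb))
    | monomial n r =>
      refine ⟨|r| * n, by positivity, fun D _ a b ha hb => ?_⟩
      rw [Polynomial.aeval_monomial, Polynomial.aeval_monomial, ← mul_sub, ← Algebra.smul_def,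
        norm_smul, Real.norm_eq_abs, mul_assoc]
      refine mul_le_mul_of_nonneg_left ?_ (abs_nonneg r)
      have hpow : ∀ m : ℕ, ‖a ^ m‖ ≤ 1 := by
        intro m
        rcases subsingleton_or_nontrivial D with h | h
        · simp [Subsingleton.elim (a ^ m) 0]
        · induction m with
          | zero => simp
          | succ m ih =>
            rw [pow_succ]
            exact (norm_mul_le _ _).trans (mul_le_one₀ ih (norm_nonneg _) ha)
      induction n with
      | zero => simp
      | succ m ih =>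
        have e : a ^ (m + 1) - b ^ (m + 1) = a ^ m * (a - b) + (a ^ m - b ^ m) * b := by
          rw [pow_succ, pow_succ]; noncomm_ring
        rw [e]
        refine (norm_add_le _ _).trans ((add_le_add ((norm_mul_le _ _).trans
          (mul_le_of_le_one_left (norm_nonneg _) (hpow m))) ((norm_mul_le _ _).trans
          ((mul_le_of_le_one_right (norm_nonneg _) hb).trans ih))).trans (le_of_eq ?_))
        push_cast
        ring
  obtain ⟨L, hL, hl⟩ := hlip
  refine ⟨ε / (3 * (L + 1)), by positivity, fun D _ a b ha hb ha1 hb1 hab => ?_⟩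
  have hnear : ∀ c : D, IsSelfAdjoint c → ‖c‖ ≤ 1 →
      ‖cfc f c - Polynomial.aeval c p‖ ≤ ε / 3 := by
    intro c hc hc1
    rw [← cfc_polynomial p c, ← cfc_sub f (fun t => p.eval t) c hf.continuousOn
      p.continuous.continuousOn]
    refine norm_cfc_le (by positivity) fun t ht => ?_
    rw [Real.norm_eq_abs, abs_sub_comm]
    exact (hp t (abs_le.1 (Mix.abs_spec hc1 ht))).le
  have h1 := hnear a ha ha1
  have h2 := hnear b hb hb1
  have h3 : ‖Polynomial.aeval a p - Polynomial.aeval b p‖ ≤ ε / 3 := by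
    refine (hl D a b ha1 hb1).trans ((mul_le_mul_of_nonneg_left hab hL).trans ?_)
    rw [mul_div_assoc', div_le_div_iff₀ (by positivity) (by positivity)]
    nlinarith
  calc ‖cfc f a - cfc f b‖ = ‖(cfc f a - Polynomial.aeval a p) +
        (Polynomial.aeval a p - Polynomial.aeval b p) + (Polynomial.aeval b p - cfc f b)‖ := by
        congr 1; abel
    _ ≤ ε / 3 + ε / 3 + ε / 3 :=
        norm_add₃_le.trans (add_le_add (add_le_add h1 h3) (by rw [norm_sub_rev]; exact h2))
    _ = ε := by ring

namespace Nil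

/-- The positive part of a number. -/
def posf (t : ℝ) : ℝ := max t 0

/-- The negative part of a number. -/
def negf (t : ℝ) : ℝ := max (-t) 0

variable {D : Type u} [CStarAlgebra D]

/-- The element of square zero built from a pair. -/
def nil (X Z : D) : D := cfc posf X * Z * cfc negf X

lemma nil_sq (X Z : D) : nil X Z * nil X Z = 0 := by
  have h : cfc negf X * cfc posf X = 0 := by
    rw [← cfc_mul negf posf X (by unfold negf; fun_prop) (by unfold posf; fun_prop),
      ← cfc_zero ℝ X]
    refine cfc_congr fun t _ => ?_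
    rcases le_total t 0 with h | h
    · simp [negf, posf, h]
    · simp [negf, posf, h]
  unfold nil
  rw [show cfc posf X * Z * cfc negf X * (cfc posf X * Z * cfc negf X) =
    cfc posf X * Z * (cfc negf X * cfc posf X) * Z * cfc negf X by simp only [mul_assoc], h]
  simp

lemma norm_part_le {X : D} (hX : ‖X‖ ≤ 1) : ‖cfc posf X‖ ≤ 1 ∧ ‖cfc negf X‖ ≤ 1 := by
  constructor <;> refine norm_cfc_le zero_le_one fun t ht => ?_ <;>
    rw [Real.norm_eq_abs] <;> obtain ⟨h1, h2⟩ := abs_le.1 (Mix.abs_spec hX ht)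
  · rw [posf, abs_of_nonneg (le_max_right _ _)]; exact max_le h2 zero_le_one
  · rw [negf, abs_of_nonneg (le_max_right _ _)]; exact max_le (by linarith) zero_le_one

lemma norm_nil_le {X Z : D} (hX : ‖X‖ ≤ 1) (hZ : ‖Z‖ ≤ 1) : ‖nil X Z‖ ≤ 1 := by
  obtain ⟨h1, h2⟩ := norm_part_le hX
  exact norm_mul₃_le.trans (mul_le_one₀ (mul_le_one₀ h1 (norm_nonneg _) hZ) (norm_nonneg _) h2)

/-- The lower bound. -/
theorem sq_nil_ge [PartialOrder D] [StarOrderedRing D] (Q : QT D) {X Z : D} (hX : IsSelfAdjoint X)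
    (hZ : IsSelfAdjoint Z) (hX1 : ‖X‖ ≤ 1) (hZ1 : ‖Z‖ ≤ 1) {ζ : ℝ} (hζ : ζ ≤ 1 / 4000)
    (h1 : Q.sq (X * X - 1) ≤ ζ) (h2 : Q.sq (Z * Z - 1) ≤ ζ) (h3 : Q.sq (X * Z + Z * X) ≤ ζ) :
    1 / 256 ≤ Q.sq (nil X Z) := by
  have cp : Continuous posf := by unfold posf; fun_prop
  have cn : Continuous negf := by unfold negf; fun_prop
  set P := cfc posf X with hP
  set M := cfc negf X with hM
  have hPM : X = P - M := by
    rw [hP, hM, ← cfc_sub posf negf X cp.continuousOn cn.continuousOn]
    conv_lhs => rw [← cfc_id' ℝ X]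
    refine cfc_congr fun t _ => ?_
    rcases le_total t 0 with h | h <;> simp [negf, posf, h]
  set A := P + M with hA
  have hA' : A = cfc (fun t => posf t + negf t) X := by
    rw [hA, hP, hM, ← cfc_add (a := X) posf negf cp.continuousOn cn.continuousOn]
  have hA1 : ‖A‖ ≤ 1 := by
    rw [hA']
    refine norm_cfc_le zero_le_one fun t ht => ?_
    obtain ⟨a, b⟩ := abs_le.1 (Mix.abs_spec hX1 ht)
    rw [Real.norm_eq_abs, abs_le]
    rcases le_total t 0 with h | h <;> simp [negf, posf, h] <;> constructor <;> linarith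
  have hAs : Q.sq (A - 1) ≤ ζ := by
    have e : A - 1 = cfc (fun t => posf t + negf t - 1) X := by
      rw [hA', cfc_sub (fun t => posf t + negf t) (fun _ => (1 : ℝ)) X (cp.add cn).continuousOn,
        cfc_const_one ℝ X]
    rw [e]
    refine (Mix.sq_cfc_le Q hX hX1 (K := 1) ((cp.add cn).sub continuous_const) fun t ht => ?_).trans
      (by simpa using h1)
    rw [abs_le] at ht ⊢
    rcases le_total t 0 with h | h <;> simp [negf, posf, h] <;> constructor <;> nlinarith
  have one_sq : (1 : ℝ) ^ 2 = 1 := one_pow 2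
  have hx : star (nil X Z) = M * Z * P := by
    rw [nil, ← hP, ← hM, star_mul, star_mul, hZ.star_eq,
      (cfc_predicate posf X : IsSelfAdjoint P).star_eq,
      (cfc_predicate negf X : IsSelfAdjoint M).star_eq, mul_assoc]
  set T := nil X Z + star (nil X Z) with hT
  have e2T : (A * Z * A - Z) - (X * Z * X + Z) + (Z + Z) = T + T := by
    rw [hT, hx, nil, ← hP, ← hM, hPM, hA]
    noncomm_ring
  set u := A * Z * A - Z with hu
  set w := X * Z * X + Z with hw
  have hsu : Q.sq u ≤ 8 * ζ := by
    have e : u = (A - 1) * (Z * A) + Z * (A - 1) := by rw [hu]; noncomm_ring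
    rw [e]
    have a1 := Q.sq_right_le ((norm_mul_le Z A).trans (mul_le_one₀ hZ1 (norm_nonneg _) hA1)) (A - 1)
    have a2 := Q.sq_left_le hZ1 (A - 1)
    have := Q.sq_add_four ((A - 1) * (Z * A)) (Z * (A - 1))
    simp only [one_sq, one_mul] at a1 a2
    linarith
  have hsw : Q.sq w ≤ 8 * ζ := by
    have e : w = (X * Z + Z * X) * X - Z * (X * X - 1) := by rw [hw]; noncomm_ring
    rw [e]
    have a1 := Q.sq_right_le hX1 (X * Z + Z * X)
    have a2 := Q.sq_left_le hZ1 (X * X - 1)
    have := Q.sq_sub_four ((X * Z + Z * X) * X) (Z * (X * X - 1))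
    simp only [one_sq, one_mul] at a1 a2
    linarith
  have hsZ : Q.sq Z ≤ 4 * Q.sq T + 64 * ζ := by
    have e : Z = T - (2⁻¹ : ℝ) • (u - w) := by
      have h : (2 : ℝ) • Z = (2 : ℝ) • (T - (2⁻¹ : ℝ) • (u - w)) := by
        rw [smul_sub, smul_smul, mul_inv_cancel₀ (by norm_num), one_smul, two_smul, two_smul,
          ← e2T]
        abel
      exact smul_right_injective D (by norm_num) h
    have a1 := Q.sq_sub_four T ((2⁻¹ : ℝ) • (u - w))
    rw [Q.sq_real_smul, ← e] at a1
    have a2 := Q.sq_sub_four u w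
    nlinarith
  have hsT : Q.sq T ≤ 8 * Q.sq (nil X Z) := by
    have := Q.sq_add_four (nil X Z) (star (nil X Z))
    rw [Q.sq_star] at this
    linarith
  have hone : (1 : ℝ) ≤ 4 * Q.sq Z + 4 * ζ := by
    have a1 := Q.sq_sub_four (Z * Z) (Z * Z - 1)
    rw [sub_sub_cancel, Q.sq_one_eq] at a1
    have a2 := Q.sq_left_le hZ1 Z
    simp only [one_sq, one_mul] at a2
    linarith
  linarith

end Nil

end Vale.Agent.P095.General
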