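import Vale.Agent.P095.General.Basic
import Vale.Agent.P095.General.Linear

/-!
Mixing commuting families by almost symmetries: binary recursion with exactly orthogonal cuts.
-/

noncomputable section

open Finset
open scoped CStarAlgebra

namespace Vale.Agent.P095.General

universe u v

namespace QT

variable {D : Type u} [CStarAlgebra D] [PartialOrder D] [StarOrderedRing D] (Q : QT D)

lemma sq_left_le {a : D} {r : ℝ} (ha : ‖a‖ ≤ r) (x : D) : Q.sq (a * x) ≤ r ^ 2 * Q.sq x := by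
  rw [sq_eq, sq_eq, ← Q.q_smul (star_mul_self_nonneg x) (pow_two_nonneg r)]
  refine Q.q_mono (star_mul_self_nonneg _) ?_
  rw [star_mul, show star x * star a * (a * x) = star x * (star a * a) * x by simp only [mul_assoc]]
  refine le_trans (CStarAlgebra.star_left_conjugate_le_norm_smul
    (hb := IsSelfAdjoint.star_mul_self a))
    (smul_le_smul_of_nonneg_right ?_ (star_mul_self_nonneg x))
  rw [CStarRing.norm_star_mul_self, pow_two]
  exact mul_self_le_mul_self (norm_nonneg a) ha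

lemma sq_right_le {a : D} {r : ℝ} (ha : ‖a‖ ≤ r) (x : D) : Q.sq (x * a) ≤ r ^ 2 * Q.sq x := by
  rw [← Q.sq_star (x * a), ← Q.sq_star x, star_mul]
  exact Q.sq_left_le (by rwa [norm_star]) _

lemma sq_real_smul (r : ℝ) (x : D) : Q.sq (r • x) = r ^ 2 * Q.sq x := by
  rw [sq_eq, sq_eq, star_smul, star_trivial, smul_mul_smul_comm, ← pow_two,
    Q.q_smul (star_mul_self_nonneg x) (pow_two_nonneg r)]

lemma sq_add_four (x y : D) : Q.sq (x + y) ≤ 4 * Q.sq x + 4 * Q.sq y :=
  (Q.sq_add_le x y one_pos).trans_eq (by norm_num)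

lemma sq_neg (x : D) : Q.sq (-x) = Q.sq x := by simp [sq_eq]

lemma sq_sub_four (x y : D) : Q.sq (x - y) ≤ 4 * Q.sq x + 4 * Q.sq y := by
  rw [sub_eq_add_neg, ← Q.sq_neg y]
  exact Q.sq_add_four x (-y)

lemma sq_one_eq : Q.sq (1 : D) = 1 := by rw [sq_eq, star_one, one_mul, Q.one]

end QT

namespace Mix

variable {D : Type u} [CStarAlgebra D]

/-- The cut onto the positive side. -/
def pf (t : ℝ) : ℝ := min 1 (max 0 (2 * t))

/-- The cut onto the negative side. -/
def mf (t : ℝ) : ℝ := pf (-t)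

/-- The majorant. -/
def gf (t : ℝ) : ℝ := 2⁻¹ * (1 + t) + (1 - t * t)

lemma cont_pf : Continuous pf := by unfold pf; fun_prop

lemma cont_mf : Continuous mf := cont_pf.comp continuous_neg

lemma pf_mem (t : ℝ) : 0 ≤ pf t ∧ pf t ≤ 1 :=
  ⟨le_min zero_le_one (le_max_left _ _), min_le_left _ _⟩

lemma pf_cases (t : ℝ) : (t ≤ 0 ∧ pf t = 0) ∨ (1 / 2 ≤ t ∧ pf t = 1) ∨
    (0 ≤ t ∧ t ≤ 1 / 2 ∧ pf t = 2 * t) := by
  rcases le_total t 0 with h | h
  · left; exact ⟨h, by rw [pf, max_eq_left (by linarith), min_eq_right zero_le_one]⟩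
  rcases le_total t (1 / 2) with h' | h'
  · right; right; exact ⟨h, h', by rw [pf, max_eq_right (by linarith), min_eq_right (by linarith)]⟩
  · right; left; exact ⟨h', by rw [pf, max_eq_right (by linarith), min_eq_left (by linarith)]⟩

lemma pf_mul_mf (t : ℝ) : pf t * mf t = 0 := by
  rcases le_total t 0 with h | h
  · rw [pf, max_eq_left (by linarith), min_eq_right zero_le_one, zero_mul]
  · rw [mf, pf, pf, max_eq_left (show 2 * -t ≤ 0 by linarith), min_eq_right zero_le_one, mul_zero]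

lemma pf_sq_le {t : ℝ} (h : |t| ≤ 1) : pf t * pf t ≤ gf t := by
  rw [abs_le] at h
  rcases pf_cases t with ⟨h1, e⟩ | ⟨h1, e⟩ | ⟨h1, h2, e⟩ <;> rw [e, gf] <;> nlinarith

lemma pf_sub_le {t : ℝ} (h : |t| ≤ 1) : |pf t - 2⁻¹ * (1 + t)| ≤ 2 * (1 - t * t) := by
  rw [abs_le] at h ⊢
  rcases pf_cases t with ⟨h1, e⟩ | ⟨h1, e⟩ | ⟨h1, h2, e⟩ <;> rw [e] <;> constructor <;> nlinarith

lemma pf_idem_le {t : ℝ} (h : |t| ≤ 1) : |pf t * pf t - pf t| ≤ 2 * (1 - t * t) := by
  rw [abs_le] at h ⊢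
  rcases pf_cases t with ⟨h1, e⟩ | ⟨h1, e⟩ | ⟨h1, h2, e⟩ <;> rw [e] <;> constructor <;> nlinarith

lemma sum_le {t : ℝ} (h : |t| ≤ 1) :
    pf t * pf t + mf t * mf t ≤ 1 ∧ |pf t + mf t - 1| ≤ 2 * (1 - t * t) := by
  rw [abs_le] at h
  rcases pf_cases t with ⟨h3, e1⟩ | ⟨h3, e1⟩ | ⟨h3, h4, e1⟩ <;>
    rcases pf_cases (-t) with ⟨h5, e2⟩ | ⟨h5, e2⟩ | ⟨h5, h6, e2⟩ <;>
    simp only [mf, e1, e2, abs_le] <;>
    refine ⟨by nlinarith, by nlinarith, by nlinarith⟩

variable {U : D}

lemma abs_spec (hn : ‖U‖ ≤ 1) {t : ℝ} (ht : t ∈ spectrum ℝ U) : |t| ≤ 1 := by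
  rcases subsingleton_or_nontrivial D with h | h
  · rw [spectrum.of_subsingleton] at ht; exact absurd ht (Set.notMem_empty _)
  · rw [← Real.norm_eq_abs]
    exact (spectrum.norm_le_norm_of_mem ht).trans hn

/-- The positive cut. -/
def ep (U : D) : D := cfc pf U

/-- The negative cut. -/
def em (U : D) : D := cfc mf U

lemma em_eq (hU : IsSelfAdjoint U) : em U = ep (-U) := by
  rw [em, ep, ← cfc_comp_neg pf U cont_pf.continuousOn]
  rfl

lemma norm_ep (U : D) : ‖ep U‖ ≤ 1 ∧ ‖em U‖ ≤ 1 := by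
  constructor <;> refine norm_cfc_le zero_le_one fun t _ => ?_ <;> rw [Real.norm_eq_abs]
  · rw [abs_of_nonneg (pf_mem t).1]; exact (pf_mem t).2
  · show |pf (-t)| ≤ 1
    rw [abs_of_nonneg (pf_mem _).1]; exact (pf_mem _).2

lemma ep_mul_em (U : D) : ep U * em U = 0 := by
  rw [ep, em, ← cfc_mul pf mf U cont_pf.continuousOn cont_mf.continuousOn, ← cfc_zero ℝ U]
  exact cfc_congr fun t _ => pf_mul_mf t

lemma em_mul_ep (U : D) : em U * ep U = 0 := by
  show cfc mf U * cfc pf U = 0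
  rw [(cfc_commute_cfc mf pf U).eq]; exact ep_mul_em U

lemma commute_ep {a : D} (h : Commute U a) : Commute (ep U) a ∧ Commute (em U) a :=
  ⟨h.cfc_real pf, h.cfc_real mf⟩

lemma star_ep (U : D) : star (ep U) = ep U ∧ star (em U) = em U :=
  ⟨(cfc_predicate pf U : IsSelfAdjoint _).star_eq, (cfc_predicate mf U : IsSelfAdjoint _).star_eq⟩

variable [PartialOrder D] [StarOrderedRing D] (Q : QT D)

/-- Functions dominated by one minus the square are small. -/
lemma sq_cfc_le (hU : IsSelfAdjoint U) (hn : ‖U‖ ≤ 1) {φ : ℝ → ℝ} (hφ : Continuous φ) {K : ℝ}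
    (h : ∀ t, |t| ≤ 1 → |φ t| ≤ K * (1 - t * t)) :
    Q.sq (cfc φ U) ≤ K ^ 2 * Q.sq (U * U - 1) := by
  have c1 : Continuous fun t : ℝ => t * t - 1 := by fun_prop
  have e : U * U - 1 = cfc (fun t : ℝ => t * t - 1) U := by
    rw [cfc_sub (fun t : ℝ => t * t) (fun _ => (1 : ℝ)) U, cfc_mul (fun t : ℝ => t) (fun t => t) U,
      cfc_id' ℝ U, cfc_const_one ℝ U]
  rw [e, QT.sq_eq, QT.sq_eq, ← Q.q_smul (star_mul_self_nonneg _) (pow_two_nonneg K)]
  refine Q.q_mono (star_mul_self_nonneg _) ?_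
  rw [(cfc_predicate φ U : IsSelfAdjoint _).star_eq,
    (cfc_predicate (fun t : ℝ => t * t - 1) U : IsSelfAdjoint _).star_eq,
    ← cfc_mul φ φ U hφ.continuousOn hφ.continuousOn,
    ← cfc_mul (fun t : ℝ => t * t - 1) (fun t => t * t - 1) U c1.continuousOn c1.continuousOn,
    ← cfc_const_mul (K ^ 2) (fun t : ℝ => (t * t - 1) * (t * t - 1)) U (c1.mul c1).continuousOn]
  refine cfc_mono (fun t ht => ?_) (hφ.mul hφ).continuousOn
    (continuous_const.mul (c1.mul c1)).continuousOn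
  have h1 := h t (abs_spec hn ht)
  have h2 : |φ t| * |φ t| ≤ K * (1 - t * t) * (K * (1 - t * t)) :=
    mul_self_le_mul_self (abs_nonneg _) h1
  rw [← abs_mul, abs_of_nonneg (mul_self_nonneg _)] at h2
  nlinarith

lemma sq_ep_sub (hU : IsSelfAdjoint U) (hn : ‖U‖ ≤ 1) :
    Q.sq (ep U - (2⁻¹ : ℝ) • (1 + U)) ≤ 4 * Q.sq (U * U - 1) := by
  have e : ep U - (2⁻¹ : ℝ) • (1 + U) = cfc (fun t => pf t - 2⁻¹ * (1 + t)) U := by
    rw [cfc_sub pf (fun t => 2⁻¹ * (1 + t)) U cont_pf.continuousOn,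
      cfc_const_mul (2⁻¹ : ℝ) (fun t => 1 + t) U, cfc_const_add (1 : ℝ) (fun t => t) U,
      cfc_id' ℝ U, Algebra.algebraMap_eq_smul_one, one_smul]
    rfl
  rw [e]
  exact (sq_cfc_le Q hU hn (cont_pf.sub (by fun_prop)) fun t ht => pf_sub_le ht).trans_eq (by ring)

lemma sq_ep_idem (hU : IsSelfAdjoint U) (hn : ‖U‖ ≤ 1) :
    Q.sq (ep U * ep U - ep U) ≤ 4 * Q.sq (U * U - 1) := by
  rw [ep, ← cfc_mul pf pf U cont_pf.continuousOn cont_pf.continuousOn,
    ← cfc_sub (fun t => pf t * pf t) pf U (cont_pf.mul cont_pf).continuousOn cont_pf.continuousOn]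
  exact (sq_cfc_le Q hU hn ((cont_pf.mul cont_pf).sub cont_pf) fun t ht => pf_idem_le ht).trans_eq
    (by ring)

lemma sq_em_idem (hU : IsSelfAdjoint U) (hn : ‖U‖ ≤ 1) :
    Q.sq (em U * em U - em U) ≤ 4 * Q.sq (U * U - 1) := by
  rw [em_eq hU]
  simpa using sq_ep_idem Q hU.neg (by rwa [norm_neg])

lemma sq_sum_sub (hU : IsSelfAdjoint U) (hn : ‖U‖ ≤ 1) :
    Q.sq (ep U + em U - 1) ≤ 4 * Q.sq (U * U - 1) := by
  rw [ep, em, ← cfc_add (a := U) pf mf cont_pf.continuousOn cont_mf.continuousOn,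
    ← cfc_const_one ℝ U, ← cfc_sub (fun t => pf t + mf t) (fun _ => (1 : ℝ)) U
    (cont_pf.add cont_mf).continuousOn continuousOn_const, cfc_const_one ℝ U]
  exact (sq_cfc_le Q hU hn ((cont_pf.add cont_mf).sub continuous_const)
    fun t ht => (sum_le ht).2).trans_eq (by ring)

/-- Almost invariance of the cuts. -/
lemma sq_act_ep (hU : IsSelfAdjoint U) (hn : ‖U‖ ≤ 1) (φ : D ≃⋆ₐ[ℂ] D) {η : ℝ}
    (hs : ∀ R : QT D, R.sq (U * U - 1) ≤ η) (hi : Q.sq (φ U - U) ≤ η) :
    Q.sq (φ (ep U) - ep U) ≤ 100 * η := by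
  have h1 : Q.sq (φ (ep U - (2⁻¹ : ℝ) • (1 + U))) ≤ 4 * η := by
    refine (QT.comp_sq Q (φ : D →⋆ₐ[ℂ] D) _).symm.trans_le ?_
    exact (sq_ep_sub _ hU hn).trans (mul_le_mul_of_nonneg_left (hs _) (by norm_num))
  have h2 : Q.sq (ep U - (2⁻¹ : ℝ) • (1 + U)) ≤ 4 * η :=
    (sq_ep_sub _ hU hn).trans (mul_le_mul_of_nonneg_left (hs _) (by norm_num))
  have h3 : Q.sq ((2⁻¹ : ℝ) • (φ U - U)) ≤ η := by
    rw [Q.sq_real_smul]
    nlinarith [Q.sq_nonneg (φ U - U)]
  have e : φ (ep U) - ep U = (φ (ep U - (2⁻¹ : ℝ) • (1 + U)) + (2⁻¹ : ℝ) • (φ U - U)) -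
      (ep U - (2⁻¹ : ℝ) • (1 + U)) := by
    simp only [map_sub, ← Complex.coe_smul, map_smul, map_add, map_one]
    simp only [smul_sub, smul_add]
    abel
  rw [e]
  refine (Q.sq_sub_four _ _).trans ?_
  linarith [Q.sq_add_four (φ (ep U - (2⁻¹ : ℝ) • (1 + U))) ((2⁻¹ : ℝ) • (φ U - U)),
    (Q.sq_nonneg (φ U - U)).trans hi]

lemma sq_act_em (hU : IsSelfAdjoint U) (hn : ‖U‖ ≤ 1) (φ : D ≃⋆ₐ[ℂ] D) {η : ℝ}
    (hs : ∀ R : QT D, R.sq (U * U - 1) ≤ η) (hi : Q.sq (φ U - U) ≤ η) :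
    Q.sq (φ (em U) - em U) ≤ 100 * η := by
  rw [em_eq hU]
  exact sq_act_ep Q hU.neg (by rwa [norm_neg]) φ (fun R => by simpa using hs R)
    (by rwa [map_neg, ← neg_add', Q.sq_neg, ← sub_eq_add_neg])

/-- One side of the mixture. -/
lemma sq_ep_mul_le (hU : IsSelfAdjoint U) (hn : ‖U‖ ≤ 1) {a : D} (ha : Commute U a) {K η : ℝ}
    (hK : 0 < K) (haK : ‖a‖ ≤ K) (hη : 0 < η) (hs : Q.sq (U * U - 1) ≤ η)
    (hf : |Q.qs ((K ^ 2)⁻¹ • (star a * a) * U)| ≤ η) :
    Q.sq (ep U * a) ≤ 2⁻¹ * Q.sq a + K ^ 2 * (η + 2 * Real.sqrt η) := by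
  set s := star a * a with hsdef
  have hs0 : 0 ≤ s := star_mul_self_nonneg a
  have has : Commute U (star a) := by simpa [hU.star_eq] using ha.star_star
  have hUs : Commute U s := has.mul_right ha
  have cg : Continuous gf := by unfold gf; fun_prop
  have ch : Continuous fun t => Real.sqrt (gf t - pf t * pf t) :=
    Real.continuous_sqrt.comp (cg.sub (cont_pf.mul cont_pf))
  set h := cfc (fun t => Real.sqrt (gf t - pf t * pf t)) U with hh
  have hsa : ∀ (φ : ℝ → ℝ), star (cfc φ U * a) * (cfc φ U * a) = cfc φ U * cfc φ U * s := by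
    intro φ
    have c1 : Commute (cfc φ U) (star a) := has.cfc_real φ
    rw [star_mul, (cfc_predicate φ U : IsSelfAdjoint _).star_eq, ← c1.eq, mul_assoc,
      ← mul_assoc (star a) (cfc φ U), ← c1.eq, mul_assoc (cfc φ U) (star a), ← mul_assoc, hsdef]
  set w : D := 1 - U * U with hw
  have e1 : star (ep U * a) * (ep U * a) + star (h * a) * (h * a) =
      (2⁻¹ : ℝ) • s + (2⁻¹ : ℝ) • (s * U) + w * s := by
    rw [ep, hh, hsa, hsa, ← add_mul, ← cfc_mul pf pf U cont_pf.continuousOn cont_pf.continuousOn,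
      ← cfc_mul (fun t => Real.sqrt (gf t - pf t * pf t)) (fun t => Real.sqrt (gf t - pf t * pf t))
        U ch.continuousOn ch.continuousOn,
      ← cfc_add (a := U) (fun t => pf t * pf t)
        (fun t => Real.sqrt (gf t - pf t * pf t) * Real.sqrt (gf t - pf t * pf t))
        (cont_pf.mul cont_pf).continuousOn (ch.mul ch).continuousOn]
    rw [cfc_congr (g := gf) (fun t ht => by
      rw [Real.mul_self_sqrt (sub_nonneg.2 (pf_sq_le (abs_spec hn ht)))]; ring)]
    have e2 : cfc gf U = (2⁻¹ : ℝ) • (1 + U) + w := by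
      unfold gf
      rw [cfc_add (a := U) (fun t => 2⁻¹ * (1 + t)) (fun t => 1 - t * t),
        cfc_const_mul (2⁻¹ : ℝ) (fun t => 1 + t) U, cfc_const_add (1 : ℝ) (fun t => t) U,
        cfc_sub (fun _ => (1 : ℝ)) (fun t => t * t) U, cfc_mul (fun t : ℝ => t) (fun t => t) U,
        cfc_id' ℝ U, cfc_const_one ℝ U, Algebra.algebraMap_eq_smul_one, one_smul]
    rw [e2, add_mul, smul_mul_assoc, add_mul, one_mul, hUs.eq, smul_add]
  have h1 : Q.sq (ep U * a) ≤ Q.q ((2⁻¹ : ℝ) • s + (2⁻¹ : ℝ) • (s * U) + w * s) := by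
    rw [← e1]
    exact Q.mono _ _
  have hsS : IsSelfAdjoint s := IsSelfAdjoint.star_mul_self a
  have hsU : IsSelfAdjoint (s * U) := (IsSelfAdjoint.commute_iff hsS hU).1 hUs.symm
  have hw0 : 0 ≤ w := sub_nonneg.2
    ((CStarAlgebra.norm_le_one_iff_of_nonneg _ hU.mul_self_nonneg).1
      ((hU.norm_mul_self).trans_le (pow_le_one₀ (norm_nonneg _) hn)))
  have hwU : Commute U w := (Commute.one_right U).sub_right ((Commute.refl U).mul_right (Commute.refl U))
  have hws : Commute w s := ((Commute.one_left s).sub_left (hUs.mul_left hUs))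
  obtain ⟨r, hr, hr2⟩ : ∃ r : D, star r * r = w ∧ Commute r a := by
    refine ⟨cfc Real.sqrt w, ?_, ?_⟩
    · rw [(cfc_predicate Real.sqrt w : IsSelfAdjoint _).star_eq,
        ← cfc_mul Real.sqrt Real.sqrt w]
      conv_rhs => rw [← cfc_id' ℝ w]
      exact cfc_congr fun t ht => Real.mul_self_sqrt (spectrum_nonneg_of_nonneg hw0 ht)
    · exact Commute.cfc_real ((Commute.one_left a).sub_left (ha.mul_left ha)) _
  have hws' : w * s = star (r * a) * (r * a) := by
    rw [star_mul, mul_assoc, ← mul_assoc (star r), hr, hsdef, ← mul_assoc,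
      ((Commute.one_left (star a)).sub_left (has.mul_left has) : Commute w (star a)).eq, mul_assoc]
  have hwsS : IsSelfAdjoint (w * s) := hws'.symm ▸ IsSelfAdjoint.star_mul_self _
  have hpos : 0 ≤ (2⁻¹ : ℝ) • s + (2⁻¹ : ℝ) • (s * U) + w * s := by
    rw [← e1]; exact add_nonneg (star_mul_self_nonneg _) (star_mul_self_nonneg _)
  have h2 : Q.qs ((2⁻¹ : ℝ) • s + (2⁻¹ : ℝ) • (s * U) + w * s) =
      2⁻¹ * Q.qs s + 2⁻¹ * Q.qs (s * U) + Q.qs (w * s) := by
    have c1 : Commute s (s * U) := (Commute.refl s).mul_right hUs.symm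
    have c2 : Commute (s * U) (w * s) :=
      (hws.symm.mul_right (Commute.refl s)).mul_left (hwU.mul_right hUs)
    have c3 : Commute s (w * s) := hws.symm.mul_right (Commute.refl s)
    rw [Q.qs_add_comm (((IsSelfAdjoint.all _).smul hsS).add ((IsSelfAdjoint.all _).smul hsU)) hwsS
        ((c3.smul_left _).add_left (c2.smul_left _)),
      Q.qs_add_comm ((IsSelfAdjoint.all _).smul hsS) ((IsSelfAdjoint.all _).smul hsU)
        ((c1.smul_left _).smul_right _), Q.qs_smul, Q.qs_smul]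
  have h3 : Q.qs (s * U) ≤ K ^ 2 * η := by
    rw [smul_mul_assoc, Q.qs_smul, abs_mul, abs_of_nonneg (by positivity),
      inv_mul_le_iff₀ (by positivity)] at hf
    exact (le_abs_self _).trans hf
  have h4 : Q.qs (w * s) ≤ K ^ 2 * (2 * Real.sqrt η) := by
    rw [hws', Q.qs_of_nonneg (star_mul_self_nonneg _), ← QT.sq_eq]
    refine (Q.sq_right_le haK r).trans (mul_le_mul_of_nonneg_left ?_ (pow_two_nonneg K))
    rw [QT.sq_eq, hr]
    have hl : 0 < Real.sqrt η := Real.sqrt_pos.2 hη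
    have hle : w ≤ Real.sqrt η • (1 : D) + (Real.sqrt η)⁻¹ • (w * w) := by
      have hwsa := IsSelfAdjoint.of_nonneg hw0
      have e3 : Real.sqrt η • (1 : D) + (Real.sqrt η)⁻¹ • (w * w) =
          cfc (fun t : ℝ => Real.sqrt η * 1 + (Real.sqrt η)⁻¹ * (t * t)) w := by
        rw [cfc_add (a := w) (fun _ : ℝ => Real.sqrt η * 1) (fun t => (Real.sqrt η)⁻¹ * (t * t)),
          cfc_const_mul _ (fun t : ℝ => t * t) w, cfc_mul (fun t : ℝ => t) (fun t => t) w,
          cfc_id' ℝ w, cfc_const_mul _ (fun _ : ℝ => (1 : ℝ)) w, cfc_const_one ℝ w]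
      conv_lhs => rw [← cfc_id' ℝ w]
      rw [e3]
      refine cfc_mono fun t _ => ?_
      have : 0 ≤ (Real.sqrt η)⁻¹ * (t - Real.sqrt η) ^ 2 := by positivity
      have e4 : (Real.sqrt η)⁻¹ * (t - Real.sqrt η) ^ 2 =
          (Real.sqrt η)⁻¹ * (t * t) - 2 * t + Real.sqrt η := by field_simp; ring
      rcases le_total t 0 with ht | ht
      · have : 0 ≤ (Real.sqrt η)⁻¹ * (t * t) := mul_nonneg (by positivity) (mul_self_nonneg t)
        linarith
      · linarith
    have hwsq : 0 ≤ w * w := (IsSelfAdjoint.of_nonneg hw0).mul_self_nonneg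
    refine (Q.q_mono hw0 hle).trans ?_
    rw [Q.q_add_comm (smul_nonneg hl.le zero_le_one) (smul_nonneg (by positivity) hwsq)
        (((Commute.one_left _).smul_left _).smul_right _),
      Q.q_smul zero_le_one hl.le, Q.one, Q.q_smul hwsq (by positivity)]
    have e5 : Q.q (w * w) = Q.sq (U * U - 1) := by
      rw [← Q.sq_neg (U * U - 1), neg_sub, ← hw, QT.sq_eq, (IsSelfAdjoint.of_nonneg hw0).star_eq]
    rw [e5]
    have : (Real.sqrt η)⁻¹ * Q.sq (U * U - 1) ≤ Real.sqrt η := by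
      rw [inv_mul_le_iff₀ hl, Real.mul_self_sqrt hη.le]; exact hs
    linarith
  rw [← Q.qs_of_nonneg hpos, h2, Q.qs_of_nonneg hs0, ← QT.sq_eq] at h1
  nlinarith

/-- The mixture of two elements. -/
lemma sq_mix_le (hU : IsSelfAdjoint U) (hn : ‖U‖ ≤ 1) {a b : D} (ha : Commute U a)
    (hb : Commute U b) {K η : ℝ} (hK : 0 < K) (haK : ‖a‖ ≤ K) (hbK : ‖b‖ ≤ K) (hη : 0 < η)
    (hs : Q.sq (U * U - 1) ≤ η) (hfa : |Q.qs ((K ^ 2)⁻¹ • (star a * a) * U)| ≤ η)
    (hfb : |Q.qs ((K ^ 2)⁻¹ • (star b * b) * U)| ≤ η) :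
    Q.sq (ep U * a + em U * b) ≤ (Q.sq a + Q.sq b) / 2 + 2 * (K ^ 2 * (η + 2 * Real.sqrt η)) := by
  have h1 := sq_ep_mul_le Q hU hn ha hK haK hη hs hfa
  have h2 := sq_ep_mul_le Q hU.neg (U := -U) (by rwa [norm_neg]) hb.neg_left hK hbK hη
    (by simpa using hs) (by rwa [mul_neg, QT.qs_neg, abs_neg])
  rw [← em_eq hU] at h2
  have has : Commute U (star a) := by simpa [hU.star_eq] using ha.star_star
  have z : star (ep U * a) * (em U * b) = 0 := by
    rw [star_mul, (star_ep U).1, mul_assoc, ← mul_assoc (ep U), ep_mul_em, zero_mul, mul_zero]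
  have z' : star (ep U * a) * (ep U * a) * (star (em U * b) * (em U * b)) = 0 := by
    rw [star_mul, star_mul, (star_ep U).1, (star_ep U).2]
    have hbs : Commute U (star b) := by simpa [hU.star_eq] using hb.star_star
    calc star a * ep U * (ep U * a) * (star b * em U * (em U * b))
        = star a * (ep U * ((ep U * a) * (star b * em U))) * (em U * b) := by
          simp only [mul_assoc]
      _ = star a * (ep U * (a * (star b * (ep U * em U)))) * (em U * b) := by
          rw [(commute_ep ha).1.eq, mul_assoc a, ← mul_assoc (ep U) (star b),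
            (commute_ep hbs).1.eq, mul_assoc (star b)]
      _ = 0 := by rw [ep_mul_em]; simp
  have z2 : star (em U * b) * (ep U * a) = 0 := by simpa using congrArg star z
  have e : star (ep U * a + em U * b) * (ep U * a + em U * b) =
      star (ep U * a) * (ep U * a) + star (em U * b) * (em U * b) := by
    rw [star_add, add_mul, mul_add, mul_add, z, z2, add_zero, zero_add]
  rw [QT.sq_eq, e, Q.orth _ _ z']
  rw [QT.sq_eq] at h1 h2
  linarith

/-- The mixture is no larger than the parts. -/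
lemma norm_mix_le (hU : IsSelfAdjoint U) (hn : ‖U‖ ≤ 1) {a b : D} (ha : Commute U a)
    (hb : Commute U b) {K : ℝ} (hK : 0 ≤ K) (haK : ‖a‖ ≤ K) (hbK : ‖b‖ ≤ K) :
    ‖ep U * a + em U * b‖ ≤ K := by
  have hle : ∀ (φ : ℝ → ℝ) (x : D), Commute U x → ‖x‖ ≤ K →
      star (cfc φ U * x) * (cfc φ U * x) ≤ K ^ 2 • (cfc φ U * cfc φ U) := by
    intro φ x hx hxK
    have hxs : Commute U (star x) := by simpa [hU.star_eq] using hx.star_star
    have c : Commute (cfc φ U) x := hx.cfc_real φ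
    have c' : Commute (cfc φ U) (star x) := hxs.cfc_real φ
    have e : star (cfc φ U * x) * (cfc φ U * x) = star (cfc φ U) * (star x * x) * cfc φ U := by
      rw [star_mul, (cfc_predicate φ U : IsSelfAdjoint _).star_eq, ← c'.eq, c.eq]
      simp only [mul_assoc]
    rw [e]
    refine le_trans (CStarAlgebra.star_left_conjugate_le_norm_smul
      (hb := IsSelfAdjoint.star_mul_self x)) ?_
    rw [(cfc_predicate φ U : IsSelfAdjoint _).star_eq, CStarRing.norm_star_mul_self, ← pow_two]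
    exact smul_le_smul_of_nonneg_right (pow_le_pow_left₀ (norm_nonneg _) hxK 2)
      (cfc_predicate φ U : IsSelfAdjoint _).mul_self_nonneg
  have z : star (ep U * a) * (em U * b) = 0 := by
    rw [star_mul, (star_ep U).1, mul_assoc, ← mul_assoc (ep U), ep_mul_em, zero_mul, mul_zero]
  have z2 : star (em U * b) * (ep U * a) = 0 := by simpa using congrArg star z
  have e : star (ep U * a + em U * b) * (ep U * a + em U * b) =
      star (ep U * a) * (ep U * a) + star (em U * b) * (em U * b) := by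
    rw [star_add, add_mul, mul_add, mul_add, z, z2, add_zero, zero_add]
  have h1 : star (ep U * a + em U * b) * (ep U * a + em U * b) ≤ algebraMap ℝ D (K ^ 2) := by
    rw [e]
    refine (add_le_add (hle pf a ha haK) (hle mf b hb hbK)).trans ?_
    rw [← smul_add, Algebra.algebraMap_eq_smul_one]
    refine smul_le_smul_of_nonneg_left ?_ (pow_two_nonneg K)
    rw [← cfc_mul pf pf U cont_pf.continuousOn cont_pf.continuousOn,
      ← cfc_mul mf mf U cont_mf.continuousOn cont_mf.continuousOn,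
      ← cfc_add (a := U) (fun t => pf t * pf t) (fun t => mf t * mf t)
        (cont_pf.mul cont_pf).continuousOn (cont_mf.mul cont_mf).continuousOn,
      ← cfc_const_one ℝ U]
    exact cfc_mono (fun t ht => (sum_le (abs_spec hn ht)).1)
      ((cont_pf.mul cont_pf).add (cont_mf.mul cont_mf)).continuousOn continuousOn_const
  have h2 : ‖star (ep U * a + em U * b) * (ep U * a + em U * b)‖ ≤ K ^ 2 :=
    (CStarAlgebra.norm_le_iff_le_algebraMap _ (pow_two_nonneg K) (star_mul_self_nonneg _)).2 h1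
  rw [CStarRing.norm_star_mul_self] at h2
  nlinarith [norm_nonneg (ep U * a + em U * b)]

end Mix

open Mix in
/-- The properties of a mixture of the first n members of the families in a finite set. -/
structure MixMap {G : Type v} {D : Type u} [CStarAlgebra D] (act : G → D ≃⋆ₐ[ℂ] D) (n : ℕ)
    (F : Finset (ℕ → D)) (P : Finset G) (K η : ℝ) where
  map : (ℕ → D) →ₗ[ℂ] D
  avg : ∀ f ∈ F, ∀ Q : QT D, Q.sq (map f) ≤ (n : ℝ)⁻¹ * ∑ j ∈ range n, Q.sq (f j) + η
  norm_le : ∀ f ∈ F, ∀ r, 0 ≤ r → r ≤ K → (∀ j, ‖f j‖ ≤ r) → ‖map f‖ ≤ r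
  sa : ∀ f ∈ F, (∀ j, IsSelfAdjoint (f j)) → IsSelfAdjoint (map f)
  one : ∀ Q : QT D, Q.sq (map 1 - 1) ≤ η
  mul : ∀ f ∈ F, ∀ g ∈ F, ∀ Q : QT D, Q.sq (map f * map g - map (f * g)) ≤ η
  inv : ∀ h ∈ P, ∀ f ∈ F, ∀ Q : QT D, Q.sq (act h (map f) - map (fun j => act h (f j))) ≤ η

open Mix in
/-- Mixtures of 2^l members exist. -/
theorem exists_mixMap (hfair : FairStatement.{u, v}) {G : Type v} [Group G] [Countable G]
    (hG : Folner G) {D : Type u} [CStarAlgebra D] (sys : Sys G D) {K : ℝ} (hK : 1 ≤ K) :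
    ∀ (l : ℕ) (F : Finset (ℕ → D)), (∀ f ∈ F, ∀ j, ‖f j‖ ≤ K) → ∀ (P : Finset G) (η : ℝ),
      0 < η → Nonempty (MixMap sys.act (2 ^ l) F P K η) := by
  classical
  let := CStarAlgebra.spectralOrder D
  have := CStarAlgebra.spectralOrderedRing D
  intro l
  induction l with
  | zero =>
    intro F hF P η hη
    exact ⟨{
      map := LinearMap.proj 0
      avg := fun f _ Q => by simp [hη.le]
      norm_le := fun f _ r _ _ h => h 0
      sa := fun f _ h => h 0
      one := fun Q => by simp [QT.sq_eq, Q.q_zero, hη.le]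
      mul := fun f _ g _ Q => by simp [QT.sq_eq, Q.q_zero, hη.le]
      inv := fun h _ f _ Q => by simp [QT.sq_eq, Q.q_zero, hη.le] }⟩
  | succ l ih =>
    intro F hF P η hη
    have hK0 : 0 < K := lt_of_lt_of_le zero_lt_one hK
    let shift : (ℕ → D) →ₗ[ℂ] (ℕ → D) :=
      LinearMap.pi fun j => LinearMap.proj (2 ^ l + j)
    let F' := F.image shift
    have hF' : ∀ f ∈ F', ∀ j, ‖f j‖ ≤ K := fun f hf j => by
      obtain ⟨g, hg, rfl⟩ := mem_image.1 hf
      exact hF g hg _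
    obtain ⟨A⟩ := ih F hF P (η / 256) (by positivity)
    obtain ⟨B⟩ := ih F' hF' P (η / 256) (by positivity)
    set r : ℝ := min 1 (η / (20000 * K ^ 4)) with hr
    have hr0 : 0 < r := lt_min one_pos (by positivity)
    have hK4 : 1 ≤ K ^ 4 := one_le_pow₀ hK
    have hr1 : 20000 * K ^ 4 * r ≤ η := by
      have := (le_div_iff₀ (by positivity)).1 (min_le_right 1 (η / (20000 * K ^ 4)))
      linarith
    set μ : ℝ := r ^ 2 with hμ
    have hμ0 : 0 < μ := by positivity
    have hμr : μ ≤ r := by rw [hμ, pow_two]; exact mul_le_of_le_one_left hr0.le (min_le_left _ _)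
    let a : (ℕ → D) → D := A.map
    let b : (ℕ → D) → D := fun f => B.map (shift f)
    have hb : ∀ f ∈ F, shift f ∈ F' := fun f hf => mem_image_of_mem _ hf
    have haK : ∀ f ∈ F, ‖a f‖ ≤ K := fun f hf => A.norm_le f hf K hK0.le le_rfl (hF f hf)
    have hbK : ∀ f ∈ F, ‖b f‖ ≤ K := fun f hf =>
      B.norm_le _ (hb f hf) K hK0.le le_rfl (hF' _ (hb f hf))
    let S : Finset D := F.image a ∪ F.image b ∪
      F.image (fun f => (K ^ 2)⁻¹ • (star (a f) * a f)) ∪
      F.image (fun f => (K ^ 2)⁻¹ • (star (b f) * b f))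
    obtain ⟨U, hU, hUn, hUc, -, hUQ⟩ := hfair G hG D sys S P μ hμ0
    have hcomm : ∀ x ∈ S, Commute U x := fun x hx => by
      have := hUc 1 x hx
      rwa [sys.act_one'] at this
    have hca : ∀ f ∈ F, Commute U (a f) := fun f hf => hcomm _ (by
      simp only [S, mem_union, mem_image]; exact Or.inl (Or.inl (Or.inl ⟨f, hf, rfl⟩)))
    have hcb : ∀ f ∈ F, Commute U (b f) := fun f hf => hcomm _ (by
      simp only [S, mem_union, mem_image]; exact Or.inl (Or.inl (Or.inr ⟨f, hf, rfl⟩)))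
    have hfair1 : ∀ x, ‖x‖ ≤ K → ∀ hx : (K ^ 2)⁻¹ • (star x * x) ∈ S, ∀ Q : QT D,
        |Q.qs ((K ^ 2)⁻¹ • (star x * x) * U)| ≤ μ := fun x hxK hx Q => by
      refine (hUQ Q).2.2 _ hx ((IsSelfAdjoint.all _).smul (IsSelfAdjoint.star_mul_self x)) ?_
      rw [norm_smul, Real.norm_of_nonneg (by positivity), CStarRing.norm_star_mul_self,
        inv_mul_le_one₀ (by positivity), pow_two]
      exact mul_self_le_mul_self (norm_nonneg _) hxK
    have hsq : ∀ Q : QT D, Q.sq (U * U - 1) ≤ μ := fun Q => (hUQ Q).1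
    let M : (ℕ → D) →ₗ[ℂ] D := LinearMap.mulLeft ℂ (ep U) ∘ₗ A.map +
      LinearMap.mulLeft ℂ (em U) ∘ₗ (B.map ∘ₗ shift)
    have hM : ∀ f, M f = ep U * a f + em U * b f := fun f => rfl
    obtain ⟨hen, hfn⟩ := norm_ep U
    refine ⟨{ map := M, avg := ?_, norm_le := ?_, sa := ?_, one := ?_, mul := ?_, inv := ?_ }⟩
    · intro f hf Q
      have h1 := sq_mix_le Q hU hUn (hca f hf) (hcb f hf) hK0 (haK f hf) (hbK f hf) hμ0 (hsq Q)
        (hfair1 _ (haK f hf) (by
          simp only [S, mem_union, mem_image]; exact Or.inl (Or.inr ⟨f, hf, rfl⟩)) Q)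
        (hfair1 _ (hbK f hf) (by
          simp only [S, mem_union, mem_image]; exact Or.inr ⟨f, hf, rfl⟩) Q)
      rw [Real.sqrt_sq hr0.le] at h1
      have h2 := A.avg f hf Q
      have h3 := B.avg _ (hb f hf) Q
      have h4 : ∑ j ∈ range (2 ^ (l + 1)), Q.sq (f j) = ∑ j ∈ range (2 ^ l), Q.sq (f j) +
          ∑ j ∈ range (2 ^ l), Q.sq (shift f j) := by
        rw [pow_succ, mul_two, sum_range_add]
        rfl
      have h5 : K ^ 2 ≤ K ^ 4 := pow_le_pow_right₀ hK (by norm_num)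
      rw [hM, h4]
      push_cast at h2 h3 ⊢
      rw [pow_succ, mul_inv, mul_comm ((2 ^ l : ℝ)⁻¹) 2⁻¹, mul_assoc, mul_add ((2 ^ l : ℝ)⁻¹)]
      have h6 : 2 * (K ^ 2 * (μ + 2 * r)) ≤ η / 2 := by nlinarith
      linarith
    · intro f hf r' hr' hrK h
      exact norm_mix_le hU hUn (hca f hf) (hcb f hf) hr' (A.norm_le f hf r' hr' hrK h)
        (B.norm_le _ (hb f hf) r' hr' hrK fun j => h _)
    · intro f hf hsa
      have h1 : IsSelfAdjoint (a f) := A.sa f hf hsa
      have h2 : IsSelfAdjoint (b f) := B.sa _ (hb f hf) fun j => hsa _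
      exact ((IsSelfAdjoint.commute_iff (star_ep U).1 h1).1 (commute_ep (hca f hf)).1).add
        ((IsSelfAdjoint.commute_iff (star_ep U).2 h2).1 (commute_ep (hcb f hf)).2)
    · intro Q
      have hb1 : shift 1 = 1 := rfl
      have e : M 1 - 1 = (ep U * (A.map 1 - 1) + em U * (B.map 1 - 1)) + (ep U + em U - 1) := by
        rw [hM]; simp only [a, b, hb1, mul_sub, mul_one]; abel
      rw [e]
      have h1 := (Q.sq_left_le hen (A.map 1 - 1)).trans (by
        rw [one_pow, one_mul]; exact A.one Q : _ ≤ η / 256)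
      have h2 := (Q.sq_left_le hfn (B.map 1 - 1)).trans (by
        rw [one_pow, one_mul]; exact B.one Q : _ ≤ η / 256)
      have h3 := (sq_sum_sub Q hU hUn).trans (mul_le_mul_of_nonneg_left (hsq Q) (by norm_num))
      refine (Q.sq_add_four _ _).trans ?_
      have h4 := Q.sq_add_four (ep U * (A.map 1 - 1)) (em U * (B.map 1 - 1))
      nlinarith
    · intro f hf g hg Q
      have hc1 := commute_ep (hca f hf)
      have hc2 := commute_ep (hcb f hf)
      have e : M f * M g - M (f * g) =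
          (ep U * (a f * a g - a (f * g)) + em U * (b f * b g - b (f * g))) +
          ((ep U * ep U - ep U) * (a f * a g) + (em U * em U - em U) * (b f * b g)) := by
        rw [hM, hM, hM]
        have e1 : ep U * a f * (em U * b g) = 0 := by
          rw [mul_assoc, ← mul_assoc (a f), ← (commute_ep (hca f hf)).2.eq, mul_assoc,
            ← mul_assoc (ep U), ep_mul_em, zero_mul]
        have e2 : em U * b f * (ep U * a g) = 0 := by
          rw [mul_assoc, ← mul_assoc (b f), ← (commute_ep (hcb f hf)).1.eq, mul_assoc,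
            ← mul_assoc (em U), em_mul_ep, zero_mul]
        have e3 : ep U * a f * (ep U * a g) = ep U * ep U * (a f * a g) := by
          rw [mul_assoc, ← mul_assoc (a f), ← hc1.1.eq, mul_assoc, ← mul_assoc, ← mul_assoc]
        have e4 : em U * b f * (em U * b g) = em U * em U * (b f * b g) := by
          rw [mul_assoc, ← mul_assoc (b f), ← hc2.2.eq, mul_assoc, ← mul_assoc, ← mul_assoc]
        rw [add_mul, mul_add (ep U * a f), mul_add (em U * b f), e1, e2, e3, e4]
        simp only [mul_sub, sub_mul]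
        abel
      rw [e]
      have hp : ∀ x y : D, ‖x‖ ≤ K → ‖y‖ ≤ K → ‖x * y‖ ≤ K ^ 2 := fun x y hx hy =>
        (norm_mul_le _ _).trans ((mul_le_mul hx hy (norm_nonneg _) hK0.le).trans_eq (pow_two K).symm)
      have h1 := (Q.sq_left_le hen (a f * a g - a (f * g))).trans (by
        rw [one_pow, one_mul]; exact A.mul f hf g hg Q : _ ≤ η / 256)
      have h2 := (Q.sq_left_le hfn (b f * b g - b (f * g))).trans (by
        rw [one_pow, one_mul]; exact B.mul _ (hb f hf) _ (hb g hg) Q : _ ≤ η / 256)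
      have h3 : Q.sq ((ep U * ep U - ep U) * (a f * a g)) ≤ 4 * K ^ 4 * μ := by
        refine (Q.sq_right_le (hp _ _ (haK f hf) (haK g hg)) _).trans ?_
        have := (sq_ep_idem Q hU hUn).trans (mul_le_mul_of_nonneg_left (hsq Q) (by norm_num))
        nlinarith [pow_nonneg hK0.le 4]
      have h4 : Q.sq ((em U * em U - em U) * (b f * b g)) ≤ 4 * K ^ 4 * μ := by
        refine (Q.sq_right_le (hp _ _ (hbK f hf) (hbK g hg)) _).trans ?_
        have := (sq_em_idem Q hU hUn).trans (mul_le_mul_of_nonneg_left (hsq Q) (by norm_num))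
        nlinarith [pow_nonneg hK0.le 4]
      refine (Q.sq_add_four _ _).trans ?_
      have h5 := Q.sq_add_four (ep U * (a f * a g - a (f * g))) (em U * (b f * b g - b (f * g)))
      have h6 := Q.sq_add_four ((ep U * ep U - ep U) * (a f * a g))
        ((em U * em U - em U) * (b f * b g))
      have h7 : K ^ 4 * μ ≤ K ^ 4 * r := mul_le_mul_of_nonneg_left hμr (by positivity)
      linarith
    · intro h hh f hf Q
      let fh : ℕ → D := fun j => sys.act h (f j)
      have e : sys.act h (M f) - M fh =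
          ((sys.act h (ep U) - ep U) * sys.act h (a f) +
            (sys.act h (em U) - em U) * sys.act h (b f)) +
          (ep U * (sys.act h (a f) - a fh) + em U * (sys.act h (b f) - b fh)) := by
        rw [hM, hM, map_add, map_mul, map_mul]
        simp only [mul_sub, sub_mul]
        abel
      rw [e]
      have hi := (hUQ Q).2.1 h hh
      have h1 : Q.sq ((sys.act h (ep U) - ep U) * sys.act h (a f)) ≤ K ^ 2 * (100 * μ) :=
        (Q.sq_right_le ((norm_act _ _).trans_le (haK f hf)) _).trans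
          (mul_le_mul_of_nonneg_left (sq_act_ep Q hU hUn _ hsq hi) (pow_two_nonneg K))
      have h2 : Q.sq ((sys.act h (em U) - em U) * sys.act h (b f)) ≤ K ^ 2 * (100 * μ) :=
        (Q.sq_right_le ((norm_act _ _).trans_le (hbK f hf)) _).trans
          (mul_le_mul_of_nonneg_left (sq_act_em Q hU hUn _ hsq hi) (pow_two_nonneg K))
      have h3 := (Q.sq_left_le hen (sys.act h (a f) - a fh)).trans (by
        rw [one_pow, one_mul]; exact A.inv h hh f hf Q : _ ≤ η / 256)
      have h4 := (Q.sq_left_le hfn (sys.act h (b f) - b fh)).trans (by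
        rw [one_pow, one_mul]; exact B.inv h hh _ (hb f hf) Q : _ ≤ η / 256)
      refine (Q.sq_add_four _ _).trans ?_
      have h5 := Q.sq_add_four ((sys.act h (ep U) - ep U) * sys.act h (a f))
        ((sys.act h (em U) - em U) * sys.act h (b f))
      have h6 := Q.sq_add_four (ep U * (sys.act h (a f) - a fh)) (em U * (sys.act h (b f) - b fh))
      have h7 : K ^ 2 * μ ≤ K ^ 4 * r :=
        mul_le_mul (pow_le_pow_right₀ hK (by norm_num)) hμr hμ0.le (by positivity)
      linarith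

end Vale.Agent.P095.General
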