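import Vale.Agent.P095.General.Basic
import Vale.Agent.P095.General.Linear

/-!
Traces on large separable pieces, and the passage from traces to averages over commuting copies.
-/

noncomputable section

open Finset Filter Topology
open scoped BoundedContinuousFunction CStarAlgebra

namespace Vale.Agent.P095.General

open Vale.Agent.P101

universe u v

/-- A bound valid for all traces holds, up to a small error, for all traces on all large separable
pieces. -/
theorem exists_countable_trace_le {G : Type v} [Group G] {D : Type u} [CStarAlgebra D]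
    (act : G → D ≃⋆ₐ[ℂ] D) (a : D) {c c' : ℝ} (hc : c < c')
    (h : ∀ τ : D →ₗ[ℂ] ℂ, IsTr τ → (τ a).re ≤ c) :
    ∃ S : Set D, S.Countable ∧ ∀ S' : Set D, S'.Countable → S ⊆ S' →
      ∀ σ : ↥(gen act S') →ₗ[ℂ] ℂ, IsTr σ → ∀ a' : ↥(gen act S'), (a' : D) = a →
        (σ a').re ≤ c' := by
  classical
  by_contra hne
  push Not at hne
  choose T hTc hTs σ hσ a' ha' hbad using fun i : {S : Set D // S.Countable} => hne i.1 i.2
  have : Nonempty {S : Set D // S.Countable} := ⟨⟨∅, Set.countable_empty⟩⟩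
  have : IsDirectedOrder {S : Set D // S.Countable} :=
    ⟨fun i j => ⟨⟨i.1 ∪ j.1, i.2.union j.2⟩, Set.subset_union_left (t := j.1),
      Set.subset_union_right (s := i.1)⟩⟩
  let U : Ultrafilter {S : Set D // S.Countable} := Ultrafilter.of atTop
  have hU : (U : Filter {S : Set D // S.Countable}) ≤ atTop := Ultrafilter.of_le atTop
  let f : {S : Set D // S.Countable} → D → ℂ := fun i d =>
    if hd : d ∈ gen act (T i) then σ i ⟨d, hd⟩ else 0
  have hf : ∀ d i, ‖f i d‖ ≤ ‖d‖ := fun d i => by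
    simp only [f]
    split_ifs with hd
    · exact (hσ i).norm_map_le ⟨d, hd⟩
    · simp
  have hlim : ∀ d, ∃ z, Tendsto (fun i => f i d) (U : Filter _) (𝓝 z) := fun d => by
    obtain ⟨z, -, hz⟩ := (isCompact_closedBall (0 : ℂ) ‖d‖).ultrafilter_le_nhds
      (U.map fun i => f i d) (by
        rw [le_principal_iff, Ultrafilter.coe_map, Filter.mem_map]
        exact Filter.univ_mem' fun i => by
          simpa [Metric.mem_closedBall] using hf d i)
    exact ⟨z, hz⟩
  choose L hL using hlim
  have hev : ∀ d, ∀ᶠ i in (U : Filter _), d ∈ gen act (T i) := fun d =>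
    hU (eventually_atTop.2 ⟨⟨{d}, Set.countable_singleton d⟩, fun i hi =>
      subset_gen (hTs i (hi rfl))⟩)
  have hfv : ∀ i d (hd : d ∈ gen act (T i)), f i d = σ i ⟨d, hd⟩ := fun i d hd => dif_pos hd
  let τ : D →ₗ[ℂ] ℂ :=
    { toFun := L
      map_add' := fun x y => tendsto_nhds_unique_of_eventuallyEq (hL (x + y)) ((hL x).add (hL y))
        (((hev x).and (hev y)).mono fun i ⟨h1, h2⟩ => by
          show f i (x + y) = f i x + f i y
          rw [hfv i x h1, hfv i y h2, hfv i _ (add_mem h1 h2), ← map_add]; rfl)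
      map_smul' := fun z x => tendsto_nhds_unique_of_eventuallyEq (hL (z • x))
        ((hL x).const_mul z) ((hev x).mono fun i h1 => by
          show f i (z • x) = z * f i x
          rw [hfv i x h1, hfv i _ ((gen act (T i)).smul_mem h1 z), ← smul_eq_mul, ← map_smul]
          rfl) }
  have hτ : IsTr τ := by
    refine ⟨?_, fun x y => ?_, fun x => ?_⟩
    · refine tendsto_nhds_unique_of_eventuallyEq (hL 1) tendsto_const_nhds
        (Eventually.of_forall fun i => ?_)
      show f i 1 = 1
      rw [hfv i 1 (one_mem _)]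
      exact (hσ i).map_one
    · refine tendsto_nhds_unique_of_eventuallyEq (hL (x * y)) (hL (y * x))
        (((hev x).and (hev y)).mono fun i ⟨h1, h2⟩ => ?_)
      show f i (x * y) = f i (y * x)
      rw [hfv i _ (mul_mem h1 h2), hfv i _ (mul_mem h2 h1)]
      exact (hσ i).comm ⟨x, h1⟩ ⟨y, h2⟩
    · have hre : ∀ᶠ i in (U : Filter _), 0 ≤ (f i (star x * x)).re ∧ (f i (star x * x)).im = 0 :=
        (hev x).mono fun i h1 => by
          rw [hfv i _ (mul_mem (star_mem h1) h1)]
          obtain ⟨r, hr, e⟩ := (hσ i).pos ⟨x, h1⟩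
          have e' : σ i ⟨star x * x, mul_mem (star_mem h1) h1⟩ = (r : ℂ) := e
          simp [e', hr]
      refine ⟨(L (star x * x)).re, ge_of_tendsto
        ((Complex.continuous_re.tendsto _).comp (hL (star x * x))) (hre.mono fun i h1 => h1.1), ?_⟩
      refine Complex.ext (by rw [Complex.ofReal_re]; rfl) ?_
      rw [Complex.ofReal_im]
      exact tendsto_nhds_unique_of_eventuallyEq
        ((Complex.continuous_im.tendsto _).comp (hL (star x * x))) tendsto_const_nhds
        (hre.mono fun i h1 => h1.2)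
  have hge : c' ≤ (τ a).re := by
    refine ge_of_tendsto ((Complex.continuous_re.tendsto _).comp (hL a))
      (Eventually.of_forall fun i => ?_)
    have hm : a ∈ gen act (T i) := ha' i ▸ (a' i).2
    show c' ≤ (f i a).re
    rw [hfv i a hm, show (⟨a, hm⟩ : ↥(gen act (T i))) = a' i from Subtype.ext (ha' i).symm]
    exact (hbad i).le
  linarith [h τ hτ]

/-- A state taking equal values at the two squares of every element is tracial. -/
lemma isTr_of_swap {B : Type u} [CStarAlgebra B] (φ : B →ₗ[ℂ] ℂ) (h1 : φ 1 = 1)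
    (hp : ∀ x, ∃ r : ℝ, 0 ≤ r ∧ φ (star x * x) = (r : ℂ))
    (hs : ∀ x, φ (star x * x) = φ (x * star x)) : IsTr φ := by
  refine ⟨h1, fun x y => ?_, hp⟩
  have key : ∀ a b, φ (star a * b) = φ (b * star a) := fun a b => by
    have e1 := hs (a + b)
    have e2 := hs (a + Complex.I • b)
    simp only [star_add, star_smul, Complex.star_def, Complex.conj_I, add_mul, mul_add,
      smul_mul_assoc, mul_smul_comm, map_add, map_smul, smul_eq_mul, hs a, hs b] at e1 e2
    have h2 : Complex.I * (φ (star a * b) - φ (star b * a) - φ (b * star a) + φ (a * star b)) = 0 := by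
      linear_combination e2
    rcases mul_eq_zero.1 h2 with h | h
    · exact absurd h Complex.I_ne_zero
    · linear_combination (e1 + h) / 2
  simpa using key (star x) y

/-- The means of the copies as one linear map into the bounded sequences. -/
def meanSeq {B D : Type u} [CStarAlgebra B] [CStarAlgebra D] (ι : Copies B D ℕ) (k : ℕ → ℕ) :
    B →ₗ[ℂ] (ℕ →ᵇ D) where
  toFun a := BoundedContinuousFunction.ofNormedAddCommGroupDiscrete
    (fun n => ((k n : ℝ) + 1)⁻¹ • ∑ j ∈ range (k n + 1), ι.hom j a) ‖a‖ fun n => by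
      rw [norm_smul, Real.norm_of_nonneg (by positivity), inv_mul_le_iff₀ (by positivity)]
      exact (norm_sum_le _ _).trans ((sum_le_card_nsmul _ _ ‖a‖ fun j _ =>
        NonUnitalStarAlgHom.norm_apply_le (ι.hom j) a).trans (le_of_eq (by simp)))
  map_add' a b := by ext n; simp [sum_add_distrib, smul_add]
  map_smul' z a := by
    ext n
    simp [← smul_sum, smul_comm z]

/-- The squared two-norm of a sum of commuting elements is additive. -/
lemma qs_sum_copies {B D : Type u} [CStarAlgebra B] [CStarAlgebra D] [PartialOrder D]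
    [StarOrderedRing D] (Q : QT D) (ι : Copies B D ℕ) (a : B) :
    ∀ n, Q.q (∑ j ∈ range n, ι.hom j (star a * a)) = ∑ j ∈ range n, Q.sq (ι.hom j a) := by
  intro n
  induction n with
  | zero => simp [Q.q_zero]
  | succ n ih =>
    have h0 : ∀ j, 0 ≤ ι.hom j (star a * a) := fun j => by
      rw [map_mul, map_star]; exact star_mul_self_nonneg _
    rw [sum_range_succ, sum_range_succ,
      Q.q_add_comm (sum_nonneg fun j _ => h0 j) (h0 n)
        (Commute.sum_left _ _ _ fun j hj => ι.comm j n (mem_range.1 hj).ne _ _), ih,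
      map_mul, map_star]
    rfl

/-- From traces to averages over many copies, uniformly in the quasitracial states. -/
theorem exists_copies_avg {B D : Type u} [CStarAlgebra B] [CStarAlgebra D] (ι : Copies B D ℕ)
    (w : B) {c η : ℝ} (hη : 0 < η) (h : ∀ σ : B →ₗ[ℂ] ℂ, IsTr σ → (σ (star w * w)).re ≤ c) :
    ∃ N : ℕ, ∀ n, N ≤ n → ∀ Q : QT D,
      ((n : ℝ) + 1)⁻¹ * ∑ j ∈ range (n + 1), Q.sq (ι.hom j w) ≤ c + η := by
  let := CStarAlgebra.spectralOrder D
  have := CStarAlgebra.spectralOrderedRing D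
  let := CStarAlgebra.spectralOrder (ℕ →ᵇ D)
  have := CStarAlgebra.spectralOrderedRing (ℕ →ᵇ D)
  by_contra hne
  push Not at hne
  choose k hk Q hQ using hne
  let U : Ultrafilter ℕ := hyperfilter ℕ
  have hU : (U : Filter ℕ) ≤ atTop := by
    rw [← Nat.cofinite_eq_atTop]; exact hyperfilter_le_cofinite
  obtain ⟨R, hR⟩ := QT.exists_limit U Q
  let := CStarAlgebra.spectralOrder (QT.Quot R)
  have := CStarAlgebra.spectralOrderedRing (QT.Quot R)
  set m := meanSeq ι k with hm
  have hmn : ∀ a n, m a n = ((k n : ℝ) + 1)⁻¹ • ∑ j ∈ range (k n + 1), ι.hom j a := fun a n => rfl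
  have hinv : Tendsto (fun n => ((k n : ℝ) + 1)⁻¹) (U : Filter ℕ) (𝓝 0) := by
    have h1 : Tendsto (fun n : ℕ => ((n : ℝ) + 1)⁻¹) atTop (𝓝 0) := by
      simpa using (tendsto_one_div_add_atTop_nhds_zero_nat (𝕜 := ℝ))
    refine squeeze_zero (fun n => by positivity) (fun n => ?_) (h1.mono_left hU)
    gcongr
    exact hk n
  have hnull : ∀ a b, R.Null (m a * m b - m b * m a) := by
    intro a b
    refine tendsto_nhds_unique (hR _) (squeeze_zero
      (f := fun n => (Q n).sq ((m a * m b - m b * m a) n))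
      (g := fun n => (2 * ‖a‖ * ‖b‖ * ((k n : ℝ) + 1)⁻¹) ^ 2)
      (fun n => (Q n).sq_nonneg _) (fun n => ?_) ?_)
    · refine ((Q n).sq_le_norm _).trans (pow_le_pow_left₀ (norm_nonneg _) ?_ 2)
      simp only [BoundedContinuousFunction.sub_apply, BoundedContinuousFunction.mul_apply, hmn,
        smul_mul_assoc, mul_smul_comm, ← smul_sub, norm_smul,
        Real.norm_of_nonneg (show (0 : ℝ) ≤ ((k n : ℝ) + 1)⁻¹ by positivity)]
      have e : (∑ j ∈ range (k n + 1), ι.hom j a) * (∑ j ∈ range (k n + 1), ι.hom j b) -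
          (∑ j ∈ range (k n + 1), ι.hom j b) * (∑ j ∈ range (k n + 1), ι.hom j a) =
          ∑ j ∈ range (k n + 1), (ι.hom j a * ι.hom j b - ι.hom j b * ι.hom j a) := by
        rw [sum_mul_sum, sum_mul_sum]
        conv_lhs => arg 2; rw [sum_comm]
        rw [← sum_sub_distrib]
        refine sum_congr rfl fun i hi => ?_
        rw [← sum_sub_distrib]
        exact sum_eq_single i (fun j _ hj => sub_eq_zero.2 (ι.comm i j hj.symm a b).eq)
          (absurd hi)
      rw [e]
      have h2 : ‖∑ j ∈ range (k n + 1), (ι.hom j a * ι.hom j b - ι.hom j b * ι.hom j a)‖ ≤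
          ((k n : ℝ) + 1) * (2 * ‖a‖ * ‖b‖) := by
        refine (norm_sum_le _ _).trans ((sum_le_card_nsmul _ _ (2 * ‖a‖ * ‖b‖) fun j _ => ?_).trans
          (le_of_eq (by simp)))
        have ha := NonUnitalStarAlgHom.norm_apply_le (ι.hom j) a
        have hb := NonUnitalStarAlgHom.norm_apply_le (ι.hom j) b
        refine (norm_sub_le _ _).trans ?_
        have := mul_le_mul ha hb (norm_nonneg _) (norm_nonneg _)
        linarith [norm_mul_le (ι.hom j a) (ι.hom j b), norm_mul_le (ι.hom j b) (ι.hom j a),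
          mul_le_mul hb ha (norm_nonneg _) (norm_nonneg _), mul_comm ‖a‖ ‖b‖]
      set r := ((k n : ℝ) + 1)⁻¹ with hr
      have hr0 : 0 ≤ r := by positivity
      refine (mul_le_mul_of_nonneg_left (mul_le_mul_of_nonneg_left h2 hr0) hr0).trans
        (le_of_eq ?_)
      rw [hr]
      field_simp
    · simpa using (hinv.const_mul (2 * ‖a‖ * ‖b‖)).pow 2
  have hmstar : ∀ a, star (m a) = m (star a) := fun a => by
    ext n
    simp [hmn, star_sum, map_star]
  let M : StarSubalgebra ℂ (ℕ →ᵇ D) := StarAlgebra.adjoin ℂ (Set.range m)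
  have hM : ∀ x ∈ M, ∀ y ∈ M, R.Null (x * y - y * x) := by
    let π := QT.proj R
    have hc : ∀ a b, Commute (π (m a)) (π (m b)) := fun a b => by
      show π (m a) * π (m b) = π (m b) * π (m a)
      rw [← map_mul π, ← map_mul π, QT.proj_eq_iff]; exact hnull a b
    let C₁ := (StarSubalgebra.centralizer ℂ (π '' Set.range m)).comap π
    have h1 : M ≤ C₁ := StarAlgebra.adjoin_le (by
      rintro x ⟨a, rfl⟩
      show π (m a) ∈ StarSubalgebra.centralizer ℂ _
      refine (StarSubalgebra.mem_centralizer_iff ℂ).2 ?_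
      rintro g ⟨_, ⟨b, rfl⟩, rfl⟩
      exact ⟨(hc b a).eq, by rw [← map_star, hmstar]; exact (hc (star b) a).eq⟩)
    let C₂ := (StarSubalgebra.centralizer ℂ (π '' (M : Set (ℕ →ᵇ D)))).comap π
    have h2 : M ≤ C₂ := StarAlgebra.adjoin_le (by
      rintro x ⟨a, rfl⟩
      show π (m a) ∈ StarSubalgebra.centralizer ℂ _
      refine (StarSubalgebra.mem_centralizer_iff ℂ).2 ?_
      rintro g ⟨y, hy, rfl⟩
      have e1 := ((StarSubalgebra.mem_centralizer_iff ℂ).1 (h1 hy) _ ⟨m a, ⟨a, rfl⟩, rfl⟩).1
      have e2 := ((StarSubalgebra.mem_centralizer_iff ℂ).1 (h1 (star_mem hy)) _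
        ⟨m a, ⟨a, rfl⟩, rfl⟩).1
      exact ⟨e1.symm, by rw [← map_star]; exact e2.symm⟩)
    intro x hx y hy
    refine (QT.proj_eq_iff R).1 ?_
    rw [map_mul, map_mul]
    exact (((StarSubalgebra.mem_centralizer_iff ℂ).1 (h2 hx) _ ⟨y, hy, rfl⟩).1).symm
  obtain ⟨Φ, hΦ1, -, hΦsa⟩ := R.exists_state M hM
  let m' : B →ₗ[ℂ] ↥M :=
    { toFun := fun a => ⟨m a, StarAlgebra.subset_adjoin ℂ _ ⟨a, rfl⟩⟩
      map_add' := fun a b => Subtype.ext (map_add m a b)
      map_smul' := fun z a => Subtype.ext (map_smul m z a) }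
  let τ : B →ₗ[ℂ] ℂ := Φ ∘ₗ m'
  have hval : ∀ a, ∃ r : ℝ, 0 ≤ r ∧ τ (star a * a) = (r : ℂ) ∧
      Tendsto (fun n => ((k n : ℝ) + 1)⁻¹ * ∑ j ∈ range (k n + 1), (Q n).sq (ι.hom j a))
        (U : Filter ℕ) (𝓝 r) := by
    intro a
    have hpos : ∀ n, 0 ≤ m (star a * a) n := fun n => by
      rw [hmn]
      exact smul_nonneg (by positivity) (sum_nonneg fun j _ => by
        rw [map_mul, map_star]; exact star_mul_self_nonneg _)
    choose s hs using fun n => CStarAlgebra.nonneg_iff_eq_star_mul_self.1 (hpos n)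
    have hsn : ∀ n, ‖s n‖ ≤ ‖m (star a * a)‖ + 1 := fun n => by
      have h1 : ‖s n‖ * ‖s n‖ ≤ ‖m (star a * a)‖ := by
        rw [← CStarRing.norm_star_mul_self, ← hs n]; exact (m (star a * a)).norm_coe_le_norm n
      nlinarith [norm_nonneg (s n), sq_nonneg (‖s n‖ - 1)]
    set S : ℕ →ᵇ D := BoundedContinuousFunction.ofNormedAddCommGroupDiscrete s _ hsn with hS
    have hSS : m (star a * a) = star S * S := by
      ext n; exact hs n
    refine ⟨R.sq S, R.sq_nonneg S, ?_, (hR S).congr fun n => ?_⟩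
    · show Φ (m' (star a * a)) = _
      have hsa : IsSelfAdjoint (m (star a * a)) := hSS ▸ IsSelfAdjoint.star_mul_self S
      rw [hΦsa (m' (star a * a)) hsa]
      show ((R.qs (m (star a * a)) : ℝ) : ℂ) = _
      rw [hSS, R.qs_of_nonneg (star_mul_self_nonneg S)]
      rfl
    · show (Q n).q (star (s n) * s n) = _
      rw [← hs n, hmn, (Q n).q_smul (sum_nonneg fun j _ => by
        rw [map_mul, map_star]; exact star_mul_self_nonneg _) (by positivity),
        qs_sum_copies (Q n) ι a]
  have hτ1 : τ 1 = 1 := by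
    show Φ (m' 1) = 1
    rw [show m' 1 = 1 from Subtype.ext (by
      ext n
      show m 1 n = 1
      rw [hmn]
      simp only [map_one, sum_const, card_range]
      rw [← Nat.cast_smul_eq_nsmul ℝ, smul_smul, Nat.cast_succ,
        inv_mul_cancel₀ (by positivity), one_smul]), hΦ1]
  have hτ : IsTr τ := isTr_of_swap τ hτ1 (fun a => by
    obtain ⟨r, hr, e, -⟩ := hval a; exact ⟨r, hr, e⟩) fun a => by
      obtain ⟨r, -, e, t1⟩ := hval a
      obtain ⟨r', -, e', t2⟩ := hval (star a)
      rw [star_star] at e'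
      rw [e, e', tendsto_nhds_unique t1 (t2.congr fun n => ?_)]
      simp only [map_star, (Q n).sq_star]
  obtain ⟨r, -, e, t⟩ := hval w
  have h1 : r ≤ c := by simpa [e] using h τ hτ
  have h2 : c + η ≤ r := ge_of_tendsto t (Eventually.of_forall fun n => (hQ n).le)
  linarith

end Vale.Agent.P095.General
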